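import Mathlib

/-!
P129: a separable quotient from an almost weak-star null sequence of functionals.

If unit-sized functionals tend to zero quickly on a dense subspace, a triangular correction gives a
biorthogonal system whose span, together with the common kernel, is dense.
-/

noncomputable section

open Filter Topology Finset

namespace Vale.Agent.P129

universe u

variable (𝕜 : Type*) [RCLike 𝕜] (X : Type u) [NormedAddCommGroup X] [NormedSpace 𝕜 X]

/-- `X` has a separable infinite-dimensional quotient by a closed subspace. -/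
def HasSeparableQuotient : Prop :=
  ∃ M : Submodule 𝕜 X, IsClosed (M : Set X) ∧ TopologicalSpace.SeparableSpace (X ⧸ M) ∧
    ¬FiniteDimensional 𝕜 (X ⧸ M)

variable {𝕜 X}

/-- On a dense subspace there is a bounded section of finitely many functionals. -/
lemma exists_section (u : ℕ → StrongDual 𝕜 X) (D : Submodule 𝕜 X) (hD : Dense (D : Set X))
    (s : Finset ℕ) : ∃ (r : ℕ) (e : Fin r → X) (c : Fin r → StrongDual 𝕜 X), (∀ k, e k ∈ D) ∧
      ∀ x, ∀ i ∈ s, u i (x - ∑ k, c k x • e k) = 0 := by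
  let φ : X →L[𝕜] ({i // i ∈ s} → 𝕜) := ContinuousLinearMap.pi fun i => u i.1
  set R := D.map φ.toLinearMap with hR
  have hmem : ∀ x, φ x ∈ R := fun x => by
    have := map_mem_closure φ.continuous (hD x)
      (fun d hd => show φ d ∈ (R : Set _) from ⟨d, hd, rfl⟩)
    rwa [R.closed_of_finiteDimensional.closure_eq] at this
  let b := Module.finBasis 𝕜 R
  choose e he hφe using fun k => (Submodule.mem_map.1 (b k).2)
  refine ⟨_, e, fun k => ((b.coord k).toContinuousLinearMap).comp (φ.codRestrict R hmem), he,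
    fun x i hi => ?_⟩
  have hx : ∑ k, b.repr ⟨φ x, hmem x⟩ k • φ (e k) = φ x := by
    have := congrArg Subtype.val (b.sum_repr ⟨φ x, hmem x⟩)
    simp only [Submodule.coe_sum, Submodule.coe_smul] at this
    simpa only [← ContinuousLinearMap.coe_coe, hφe] using this
  have h0 : φ (x - ∑ k, b.repr ⟨φ x, hmem x⟩ k • e k) = 0 := by
    rw [map_sub, map_sum]
    simp only [map_smul]
    rw [hx, sub_self]
  exact congrFun h0 ⟨i, hi⟩

/-- The solution of a unit lower triangular system. -/
def solve (A : ℕ → ℕ → 𝕜) (b : ℕ → 𝕜) : ℕ → 𝕜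
  | i => b i - ∑ j : Fin i, solve A b j * A i j
  termination_by i => i
  decreasing_by exact j.2

lemma solve_eq (A : ℕ → ℕ → 𝕜) (b : ℕ → 𝕜) (i : ℕ) :
    solve A b i + ∑ j ∈ range i, solve A b j * A i j = b i := by
  conv_lhs => arg 1; rw [solve]
  rw [← Fin.sum_univ_eq_sum_range fun j => solve A b j * A i j]
  exact sub_add_cancel _ _

/-- A sequence of functionals of size one tending to zero quickly on a dense subspace gives a
separable infinite-dimensional quotient. -/
theorem hasSeparableQuotient_of_rapid [CompleteSpace X] (u : ℕ → StrongDual 𝕜 X)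
    (hu : ∀ n, (1 / 2 : ℝ) ≤ ‖u n‖) (D : Submodule 𝕜 X) (hD : Dense (D : Set X))
    (hd : ∀ x ∈ D, Tendsto (fun n => 8 ^ n * ‖u n x‖) atTop (𝓝 0)) :
    HasSeparableQuotient 𝕜 X := by
  classical
  have hsmall : ∀ x ∈ D, Tendsto (fun n => ‖u n x‖) atTop (𝓝 0) := fun x hx =>
    squeeze_zero (fun n => norm_nonneg _)
      (fun n => le_mul_of_one_le_left (norm_nonneg _) (one_le_pow₀ (by norm_num))) (hd x hx)
  -- the system
  obtain ⟨f, hP, hr⟩ := exists_seq_of_forall_finset_exists
    (fun p : ℕ × X => p.2 ∈ D ∧ u p.1 p.2 = 1 ∧ ‖p.2‖ ≤ 2 ^ p.1)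
    (fun p q : ℕ × X => p.1 < q.1 ∧ u p.1 q.2 = 0 ∧ 4 * 4 ^ q.1 * ‖u q.1 p.2‖ ≤ 1) (by
      intro s hs
      obtain ⟨r, e, c, he, hc⟩ := exists_section u D hD (s.image Prod.fst)
      set Q := 1 + ∑ k, ‖c k‖ * ‖e k‖
      have hQ : 0 < Q := by
        have : 0 ≤ ∑ k, ‖c k‖ * ‖e k‖ := Finset.sum_nonneg fun k _ => by positivity
        linarith
      have e1 : ∀ᶠ n in atTop, ∀ y ∈ s, y.1 < n ∧ 4 * 4 ^ n * ‖u n y.2‖ ≤ 1 := by
        rw [eventually_all_finset]
        intro y hy
        filter_upwards [eventually_gt_atTop y.1,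
          (hd y.2 (hs y hy).1).eventually_le_const (show (0 : ℝ) < 1 / 4 by norm_num)] with n h1 h2
        refine ⟨h1, ?_⟩
        have h3 : (4 : ℝ) ^ n ≤ 8 ^ n := pow_le_pow_left₀ (by norm_num) (by norm_num) n
        nlinarith [mul_le_mul_of_nonneg_right h3 (norm_nonneg (u n y.2))]
      have e2 : ∀ᶠ n in atTop, ∑ k, ‖c k‖ * ‖u n (e k)‖ ≤ 1 / 8 := by
        have : Tendsto (fun n => ∑ k, ‖c k‖ * ‖u n (e k)‖) atTop (𝓝 0) := by
          simpa using tendsto_finsetSum _ fun k _ => (hsmall _ (he k)).const_mul ‖c k‖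
        exact this.eventually_le_const (by norm_num)
      have e3 : ∀ᶠ n : ℕ in atTop, 8 * Q ≤ (2 : ℝ) ^ n :=
        (tendsto_pow_atTop_atTop_of_one_lt (by norm_num)).eventually_ge_atTop _
      obtain ⟨n, h1, h2, h3⟩ := (e1.and (e2.and e3)).exists
      obtain ⟨d, hdD, hd1, hd2⟩ : ∃ d ∈ D, ‖d‖ ≤ 1 ∧ (1 / 4 : ℝ) ≤ ‖u n d‖ := by
        by_contra h
        push Not at h
        have hall : ∀ d ∈ D, ‖u n d‖ ≤ 1 / 4 * ‖d‖ := fun d hdD => by
          rcases eq_or_ne d 0 with rfl | h0
          · simp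
          have hn := norm_ne_zero_iff.2 h0
          have := h ((‖d‖⁻¹ : 𝕜) • d) (D.smul_mem _ hdD) (by simp [norm_smul, hn])
          rw [map_smul, norm_smul, norm_inv, RCLike.norm_ofReal, abs_norm,
            inv_mul_lt_iff₀ (norm_pos_iff.2 h0)] at this
          linarith
        have hclosed : IsClosed {d : X | ‖u n d‖ ≤ 1 / 4 * ‖d‖} :=
          isClosed_le (by fun_prop) (by fun_prop)
        have := (u n).opNorm_le_bound (show (0 : ℝ) ≤ 1 / 4 by norm_num)
          fun x => hclosed.closure_subset_iff.2 hall (hD x)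
        linarith [hu n]
      set x' := d - ∑ k, c k d • e k with hx'
      have hx'D : x' ∈ D := D.sub_mem hdD (D.sum_mem fun k _ => D.smul_mem _ (he k))
      have hcd : ∀ k, ‖c k d‖ ≤ ‖c k‖ := fun k =>
        ((c k).le_opNorm d).trans (mul_le_of_le_one_right (norm_nonneg _) hd1)
      have hlow : (1 / 8 : ℝ) ≤ ‖u n x'‖ := by
        have : ‖u n (∑ k, c k d • e k)‖ ≤ 1 / 8 := by
          rw [map_sum]
          refine (norm_sum_le _ _).trans (le_trans (Finset.sum_le_sum fun k _ => ?_) h2)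
          rw [map_smul, norm_smul]
          exact mul_le_mul_of_nonneg_right (hcd k) (norm_nonneg _)
        have h4 := norm_sub_norm_le (u n d) (u n (∑ k, c k d • e k))
        rw [← map_sub] at h4
        linarith
      have hup : ‖x'‖ ≤ Q := by
        refine (norm_sub_le _ _).trans (add_le_add hd1 ((norm_sum_le _ _).trans
          (Finset.sum_le_sum fun k _ => ?_)))
        rw [norm_smul]
        exact mul_le_mul_of_nonneg_right (hcd k) (norm_nonneg _)
      have hne : u n x' ≠ 0 := fun h => by rw [h, norm_zero] at hlow; norm_num at hlow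
      refine ⟨(n, (u n x')⁻¹ • x'), ⟨D.smul_mem _ hx'D, by simp [hne], ?_⟩, fun y hy => ?_⟩
      · rw [norm_smul, norm_inv, inv_mul_le_iff₀ (norm_pos_iff.2 hne)]
        nlinarith [mul_le_mul hlow h3 (by positivity) (norm_nonneg _)]
      · refine ⟨(h1 y hy).1, ?_, (h1 y hy).2⟩
        simp only [map_smul, hx']
        rw [hc d y.1 (Finset.mem_image_of_mem _ hy), smul_zero])
  set ν : ℕ → ℕ := fun i => (f i).1
  set x : ℕ → X := fun i => (f i).2
  set v : ℕ → StrongDual 𝕜 X := fun i => u (ν i)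
  have hν : StrictMono ν := fun m n h => (hr m n h).1
  have hxD : ∀ i, x i ∈ D := fun i => (hP i).1
  have hdiag : ∀ i, v i (x i) = 1 := fun i => (hP i).2.1
  have hxn : ∀ i, ‖x i‖ ≤ 2 ^ ν i := fun i => (hP i).2.2
  have hup0 : ∀ i j, i < j → v i (x j) = 0 := fun i j h => (hr i j h).2.1
  have hlo : ∀ i j, j < i → 2 ^ ν i * ‖v i (x j)‖ ≤ 1 / 4 * (1 / 2 : ℝ) ^ i := by
    intro i j h
    have h1 := (hr j i h).2.2
    have h2 : (2 : ℝ) ^ i ≤ 2 ^ ν i := pow_le_pow_right₀ (by norm_num) hν.le_apply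
    change 4 * 4 ^ ν i * ‖v i (x j)‖ ≤ 1 at h1
    rw [show (4 : ℝ) ^ ν i = 2 ^ ν i * 2 ^ ν i by rw [← mul_pow]; norm_num] at h1
    rw [one_div_pow, ← div_eq_mul_one_div, le_div_iff₀ (by positivity)]
    nlinarith [mul_le_mul_of_nonneg_left h2
      (show 0 ≤ 2 ^ ν i * ‖v i (x j)‖ by positivity)]
  -- solving the system with a bound
  have hsolve : ∀ b : ℕ → 𝕜, Summable (fun i => ‖b i‖ * 2 ^ ν i) →
      ∃ e : X, (∀ i, v i e = b i) ∧ ‖e‖ ≤ 2 * ∑' i, ‖b i‖ * 2 ^ ν i := by
    intro b hb
    set c := solve (fun i j => v i (x j)) b with hc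
    set a : ℕ → ℝ := fun i => ‖c i‖ * 2 ^ ν i
    set T := ∑' i, ‖b i‖ * 2 ^ ν i
    have ha0 : ∀ i, 0 ≤ a i := fun i => by positivity
    have hstep : ∀ i, a i ≤ ‖b i‖ * 2 ^ ν i + 1 / 4 * (1 / 2 : ℝ) ^ i * ∑ j ∈ range i, a j := by
      intro i
      have heq : c i = b i - ∑ j ∈ range i, c j * v i (x j) :=
        eq_sub_of_add_eq (solve_eq _ b i)
      show ‖c i‖ * 2 ^ ν i ≤ _
      rw [heq, Finset.mul_sum]
      refine (mul_le_mul_of_nonneg_right (norm_sub_le _ _) (by positivity)).trans ?_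
      rw [add_mul]
      refine add_le_add le_rfl ((mul_le_mul_of_nonneg_right (norm_sum_le _ _) (by positivity)).trans
        ?_)
      rw [Finset.sum_mul]
      refine Finset.sum_le_sum fun j hj => ?_
      have h1 := hlo i j (Finset.mem_range.1 hj)
      have h2 : ‖c j‖ ≤ a j := le_mul_of_one_le_right (norm_nonneg _) (one_le_pow₀ (by norm_num))
      calc ‖c j * v i (x j)‖ * 2 ^ ν i = ‖c j‖ * (2 ^ ν i * ‖v i (x j)‖) := by rw [norm_mul]; ring
        _ ≤ a j * (1 / 4 * (1 / 2) ^ i) := mul_le_mul h2 h1 (by positivity) (ha0 j)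
        _ = _ := mul_comm _ _
    have hS : ∀ N, ∑ i ∈ range N, a i ≤ 2 * T := by
      intro N
      have hb1 := hb.sum_le_tsum (range N) fun i _ => by positivity
      have hge : ∑ i ∈ range N, 1 / 4 * (1 / 2 : ℝ) ^ i * ∑ j ∈ range i, a j ≤
          ∑ i ∈ range N, 1 / 4 * (1 / 2 : ℝ) ^ i * ∑ j ∈ range N, a j :=
        Finset.sum_le_sum fun i hi => mul_le_mul_of_nonneg_left
          (Finset.sum_le_sum_of_subset_of_nonneg
            (Finset.range_mono (Finset.mem_range.1 hi).le) fun j _ _ => ha0 j) (by positivity)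
      rw [← Finset.sum_mul, ← Finset.mul_sum] at hge
      have hg2 : ∑ i ∈ range N, (1 / 2 : ℝ) ^ i ≤ 2 := sum_geometric_two_le N
      have h0 : 0 ≤ ∑ j ∈ range N, a j := Finset.sum_nonneg fun j _ => ha0 j
      have h1 := Finset.sum_le_sum (s := range N) fun i _ => hstep i
      rw [Finset.sum_add_distrib] at h1
      nlinarith [mul_le_mul_of_nonneg_right hg2 h0]
    have hsum : Summable a := summable_of_sum_range_le ha0 hS
    have hxs : ∀ j, ‖c j • x j‖ ≤ a j := fun j => by
      rw [norm_smul]; exact mul_le_mul_of_nonneg_left (hxn j) (norm_nonneg _)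
    have hse : Summable fun j => c j • x j := .of_norm_bounded hsum hxs
    refine ⟨∑' j, c j • x j, fun i => ?_,
      (tsum_of_norm_bounded hsum.hasSum hxs).trans (Real.tsum_le_of_sum_range_le ha0 hS)⟩
    rw [(v i).map_tsum hse, tsum_eq_sum (s := range (i + 1)) fun j hj => by
      simp only [Finset.mem_range] at hj
      rw [map_smul, hup0 i j (by omega), smul_zero]]
    simp only [Finset.sum_range_succ, map_smul, hdiag, smul_eq_mul, mul_one]
    rw [add_comm]
    exact solve_eq _ b i
  have hdec : ∀ y ∈ D, Summable fun i => ‖v i y‖ * 2 ^ ν i := by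
    intro y hy
    refine Summable.of_norm_bounded_eventually_nat (g := fun i => (1 / 4 : ℝ) ^ i)
      (summable_geometric_of_lt_one (by norm_num) (by norm_num)) ?_
    filter_upwards [((hd y hy).comp hν.tendsto_atTop).eventually_le_const zero_lt_one] with i hi
    simp only [Function.comp_apply] at hi
    have h2 : (4 : ℝ) ^ i ≤ 4 ^ ν i := pow_le_pow_right₀ (by norm_num) hν.le_apply
    rw [Real.norm_of_nonneg (by positivity), one_div_pow, le_div_iff₀ (by positivity)]
    rw [show (8 : ℝ) ^ ν i = 2 ^ ν i * 4 ^ ν i by rw [← mul_pow]; norm_num] at hi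
    nlinarith [mul_le_mul_of_nonneg_left h2 (show 0 ≤ ‖v i y‖ * 2 ^ ν i by positivity)]
  have htail : ∀ y ∈ D, ∀ m, ∃ e : X, (∀ i, v i e = if m ≤ i then v i y else 0) ∧
      ‖e‖ ≤ 2 * ∑' i, ‖v (i + m) y‖ * 2 ^ ν (i + m) := by
    intro y hy m
    have hb : Summable fun i => ‖if m ≤ i then v i y else 0‖ * 2 ^ ν i :=
      Summable.of_nonneg_of_le (fun i => by positivity) (fun i => by
        split_ifs with h
        · exact le_rfl
        · simp only [norm_zero, zero_mul]; positivity) (hdec y hy)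
    obtain ⟨e, he1, he2⟩ := hsolve _ hb
    refine ⟨e, he1, he2.trans_eq ?_⟩
    rw [← hb.sum_add_tsum_nat_add m, Finset.sum_eq_zero fun i hi => by
      simp [not_le.2 (Finset.mem_range.1 hi)], zero_add]
    congr 2
    funext i
    simp
  choose z hz using fun j => htail (x j) (hxD j) (j + 1)
  set zz : ℕ → X := fun j => x j - z j
  have hzz : ∀ i j, v i (zz j) = if i = j then 1 else 0 := by
    intro i j
    simp only [zz, map_sub, (hz j).1 i]
    rcases lt_trichotomy i j with h | rfl | h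
    · simp [hup0 i j h, h.ne, show ¬j + 1 ≤ i by omega]
    · simp [hdiag i]
    · simp [h.ne', show j + 1 ≤ i by omega]
  let M : Submodule 𝕜 X := ⨅ i, (v i).ker
  have hMm : ∀ y, y ∈ M ↔ ∀ i, v i y = 0 := fun y => by simp [M, Submodule.mem_iInf]
  have hMc : IsClosed (M : Set X) := by
    rw [show (M : Set X) = ⋂ i, {y | v i y = 0} by ext y; simp [hMm]]
    exact isClosed_iInter fun i => isClosed_eq (v i).continuous continuous_const
  set Y := M ⊔ Submodule.span 𝕜 (Set.range zz)
  have hY : ∀ (m : ℕ) (y : X), (∀ i, m ≤ i → v i y = 0) → y ∈ Y := by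
    intro m
    induction m with
    | zero => exact fun y h => Submodule.mem_sup_left ((hMm y).2 fun i => h i (Nat.zero_le i))
    | succ m ih =>
      intro y h
      have := ih (y - v m y • zz m) fun i hi => by
        rw [map_sub, map_smul, hzz i m]
        rcases hi.eq_or_lt with rfl | h'
        · simp
        · simp [h'.ne', h i (by omega)]
      simpa using Y.add_mem this (Y.smul_mem (v m y)
        (Submodule.mem_sup_right (Submodule.subset_span ⟨m, rfl⟩)))
  have hYd : Dense (Y : Set X) := by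
    refine fun y => closure_minimal (s := (D : Set X)) ?_ isClosed_closure (hD y)
    intro y hy
    choose e he using htail y hy
    have ht : Tendsto (fun m => y - e m) atTop (𝓝 y) := by
      have h0 : Tendsto e atTop (𝓝 0) := squeeze_zero_norm (fun m => (he m).2) (by
        simpa using (tendsto_sum_nat_add fun i => ‖v i y‖ * 2 ^ ν i).const_mul (2 : ℝ))
      simpa using h0.const_sub y
    refine mem_closure_of_tendsto ht (.of_forall fun m => hY m _ fun i hi => ?_)
    rw [map_sub, (he m).1 i, if_pos hi, sub_self]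
  refine ⟨M, hMc, ?_, ?_⟩
  · have hq : Continuous (M.mkQ : X → X ⧸ M) := continuous_quot_mk
    have hsep : TopologicalSpace.IsSeparable
        ((Submodule.span 𝕜 (Set.range (M.mkQ ∘ zz)) : Submodule 𝕜 (X ⧸ M)) : Set (X ⧸ M)) :=
      (Set.countable_range _).isSeparable.span
    refine TopologicalSpace.isSeparable_univ_iff.1 (hsep.closure.mono fun q _ => ?_)
    obtain ⟨y, rfl⟩ := M.mkQ_surjective q
    refine map_mem_closure hq (hYd y) fun w hw => ?_
    obtain ⟨a, ha, b, hb, rfl⟩ := Submodule.mem_sup.1 hw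
    rw [map_add, show M.mkQ a = 0 from (Submodule.Quotient.mk_eq_zero M).2 ha, zero_add,
      Set.range_comp, ← Submodule.map_span]
    exact Submodule.mem_map_of_mem hb
  · intro hfin
    have hli : LinearIndependent 𝕜 fun i => M.mkQ (zz i) := by
      rw [linearIndependent_iff']
      intro s g hg i hi
      have h1 : ∑ j ∈ s, g j • zz j ∈ M := by
        rw [← Submodule.Quotient.mk_eq_zero, ← Submodule.mkQ_apply, map_sum]
        simpa using hg
      have h2 := (hMm _).1 h1 i
      simpa [map_sum, hzz, hi] using h2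
    exact @not_finite ℕ _ hli.finite

end Vale.Agent.P129
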