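import Mathlib

/-!
P129: the pseudo-intersection number.
-/

open Cardinal Set Filter

namespace Vale.Agent.P129

/-- Every finite intersection of members is infinite. -/
def StrongFIP (ℱ : Set (Set ℕ)) : Prop :=
  ∀ s : Finset (Set ℕ), ↑s ⊆ ℱ → (⋂ A ∈ s, A).Infinite

/-- An infinite set almost contained in every member. -/
def HasPseudoIntersection (ℱ : Set (Set ℕ)) : Prop :=
  ∃ P : Set ℕ, P.Infinite ∧ ∀ A ∈ ℱ, (P \ A).Finite

/-- The pseudo-intersection number: the least size of a family with all finite intersections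
infinite and without a pseudo-intersection. -/
noncomputable def pseudoNumber : Cardinal :=
  sInf {c | ∃ ℱ : Set (Set ℕ), StrongFIP ℱ ∧ ¬HasPseudoIntersection ℱ ∧ Cardinal.mk ℱ = c}

lemma hasPseudoIntersection_of_countable {ℱ : Set (Set ℕ)} (hc : ℱ.Countable) (h : StrongFIP ℱ) :
    HasPseudoIntersection ℱ := by
  classical
  rcases ℱ.eq_empty_or_nonempty with rfl | hne
  · exact ⟨univ, infinite_univ, by simp⟩
  obtain ⟨A, rfl⟩ := hc.exists_eq_range hne
  have hx : ∀ n, ∃ x, n < x ∧ ∀ i ≤ n, x ∈ A i := fun n => by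
    obtain ⟨x, hx, hnx⟩ := (h ((Finset.range (n + 1)).image A) (by
      intro S hS
      obtain ⟨i, -, rfl⟩ := Finset.mem_image.1 (Finset.mem_coe.1 hS)
      exact ⟨i, rfl⟩)).exists_gt n
    refine ⟨x, hnx, fun i hi => ?_⟩
    simp only [mem_iInter] at hx
    exact hx (A i) (Finset.mem_image_of_mem _ (Finset.mem_range.2 (by omega)))
  choose x hlt hmem using hx
  refine ⟨range x, infinite_of_forall_exists_gt fun n => ⟨x n, ⟨n, rfl⟩, hlt n⟩, ?_⟩
  rintro _ ⟨i, rfl⟩
  refine ((finite_Iio i).image x).subset ?_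
  rintro _ ⟨⟨n, rfl⟩, hn⟩
  exact ⟨n, lt_of_not_ge fun hin => hn (hmem n i hin), rfl⟩

lemma exists_family_without_pseudoIntersection :
    ∃ ℱ : Set (Set ℕ), StrongFIP ℱ ∧ ¬HasPseudoIntersection ℱ := by
  refine ⟨{A | A ∈ hyperfilter ℕ}, fun s hs => ?_, ?_⟩
  · intro hfin
    exact notMem_hyperfilter_of_finite hfin ((biInter_finset_mem s).2 fun A hA => hs hA)
  · rintro ⟨P, hP, hall⟩
    have hev := Nat.nth_injective hP
    set P₁ := range fun k => Nat.nth (· ∈ P) (2 * k) with hP₁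
    by_cases h : P₁ ∈ hyperfilter ℕ
    · refine (hall P₁ h).not_infinite (infinite_of_injective_forall_mem
        (f := fun k => Nat.nth (· ∈ P) (2 * k + 1)) (fun a b hab => by simpa using hev hab)
        fun k => ⟨Nat.nth_mem_of_infinite hP _, ?_⟩)
      rintro ⟨l, hl⟩
      have := hev hl
      omega
    · refine (hall _ (compl_mem_hyperfilter_of_notMem h)).not_infinite
        (infinite_of_injective_forall_mem (f := fun k => Nat.nth (· ∈ P) (2 * k))
          (fun a b hab => by simpa using hev hab)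
          fun k => ⟨Nat.nth_mem_of_infinite hP _, fun hk => hk ⟨k, rfl⟩⟩)
where
  compl_mem_hyperfilter_of_notMem {A : Set ℕ} (h : A ∉ hyperfilter ℕ) : Aᶜ ∈ hyperfilter ℕ :=
    Ultrafilter.compl_mem_iff_notMem.2 h

lemma hasPseudoIntersection_of_lt {ℱ : Set (Set ℕ)} (h : StrongFIP ℱ)
    (hlt : Cardinal.mk ℱ < pseudoNumber) : HasPseudoIntersection ℱ :=
  by_contra fun hno => (notMem_of_lt_csInf' hlt) ⟨ℱ, h, hno, rfl⟩

lemma aleph0_lt_pseudoNumber : ℵ₀ < pseudoNumber := by
  obtain ⟨ℱ, h1, h2⟩ := exists_family_without_pseudoIntersection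
  obtain ⟨𝒢, h3, h4, h5⟩ := csInf_mem
    (show {c | ∃ ℱ : Set (Set ℕ), StrongFIP ℱ ∧ ¬HasPseudoIntersection ℱ ∧
      Cardinal.mk ℱ = c}.Nonempty from ⟨_, ℱ, h1, h2, rfl⟩)
  rw [pseudoNumber, ← h5]
  by_contra hle
  exact h4 (hasPseudoIntersection_of_countable (le_aleph0_iff_set_countable.1 (not_lt.1 hle)) h3)

end Vale.Agent.P129
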