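import Vale.Agent.P129.Norming
import Vale.Agent.P129.Pseudo

/-!
P129: Banach spaces generated by fewer weakly compact discs than the pseudo-intersection number.
-/

noncomputable section

open Filter Topology Set Cardinal

namespace Vale.Agent.P129

universe u v

variable {𝕜 : Type*} [RCLike 𝕜] {X : Type u} [NormedAddCommGroup X] [NormedSpace 𝕜 X]

/-- A separable infinite-dimensional space of functionals. -/
lemma exists_separable_subspace (hX : ¬FiniteDimensional 𝕜 X) :
    ∃ G : Submodule 𝕜 (StrongDual 𝕜 X),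
      ¬FiniteDimensional 𝕜 G ∧ TopologicalSpace.SeparableSpace G := by
  have hd : ¬FiniteDimensional 𝕜 (StrongDual 𝕜 X) := fun h => hX (by
    have : FiniteDimensional 𝕜 (StrongDual 𝕜 (StrongDual 𝕜 X)) := inferInstance
    have : IsNoetherian 𝕜 (StrongDual 𝕜 (StrongDual 𝕜 X)) :=
    isNoetherian_of_isNoetherianRing_of_finite 𝕜 (StrongDual 𝕜 (StrongDual 𝕜 X))
    exact Module.Finite.of_injective
      ((NormedSpace.inclusionInDoubleDual 𝕜 X) : X →ₗ[𝕜] StrongDual 𝕜 (StrongDual 𝕜 X))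
      (fun a b h => by exact (NormedSpace.inclusionInDoubleDualLi 𝕜 (E := X)).injective h))
  obtain ⟨ι, b⟩ := (Module.Basis.exists_basis 𝕜 (StrongDual 𝕜 X))
  obtain ⟨b⟩ := b
  have : Infinite ι := by
    by_contra h
    rw [not_infinite_iff_finite] at h
    exact hd (Module.Finite.of_basis b)
  set g : ℕ → StrongDual 𝕜 X := fun n => b (Infinite.natEmbedding _ n)
  have hli : LinearIndependent 𝕜 g :=
    b.linearIndependent.comp _ (Infinite.natEmbedding _).injective
  refine ⟨Submodule.span 𝕜 (range g), fun h => ?_,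
    ((countable_range g).isSeparable.span).separableSpace⟩
  exact @not_finite ℕ _ (linearIndependent_span hli).finite

/-- The main theorem. -/
theorem hasSeparableQuotient_of_lt_pseudoNumber [CompleteSpace X] (hX : ¬FiniteDimensional 𝕜 X)
    {ι : Type v} (K : ι → Set X) (hK : ∀ i, IsWeaklyCompactDisc 𝕜 (K i))
    (hdense : Dense (Submodule.span 𝕜 (⋃ i, K i) : Set X))
    (hι : Cardinal.lift.{0} (Cardinal.mk ι) < Cardinal.lift.{v} pseudoNumber) :
    HasSeparableQuotient 𝕜 X := by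
  classical
  obtain ⟨G, hG, hGs⟩ := exists_separable_subspace hX
  by_cases hN : ∃ F : Finset ι, ∃ S : Set X, IsWeaklyCompactDisc 𝕜 S ∧ (0 : X) ∈ S ∧
      (∀ i ∈ F, K i ⊆ S) ∧ ∃ C : ℝ, 0 < C ∧
      ∀ g : G, ∃ s ∈ S, ‖g‖ ≤ C * ‖(g : StrongDual 𝕜 X) s‖
  · obtain ⟨-, S, hS, h0, -, C, hC, hn⟩ := hN
    exact hasSeparableQuotient_of_norming (G := G) (T := G.subtypeₗᵢ) hG hS h0 hC hn
  have : Nonempty G := ⟨0⟩
  set a : ℕ → StrongDual 𝕜 X := fun j => (TopologicalSpace.denseSeq G j : StrongDual 𝕜 X)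
  -- small functionals of size one for finitely many sets
  have hsmall : ∀ (F : Finset ι) (ε : ℝ), 0 < ε →
      ∃ j, (1 / 2 : ℝ) ≤ ‖a j‖ ∧ ∀ i ∈ F, ∀ x ∈ K i, ‖a j x‖ ≤ ε := by
    intro F ε hε
    obtain ⟨S, hS, h0, hsub⟩ := exists_disc_of_finset K hK F
    obtain ⟨R, hR⟩ := hS.exists_bound
    have hR0 : 0 ≤ R := (norm_nonneg _).trans (hR 0 h0)
    push Not at hN
    obtain ⟨g, hg⟩ := hN F S hS h0 hsub (2 / ε) (by positivity)
    have hg0 : g ≠ 0 := fun h => by
      have := hg 0 h0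
      simp [h] at this
    set r : ℝ := ‖(g : StrongDual 𝕜 X)‖ with hr
    set g' : G := (r⁻¹ : 𝕜) • g with hg'
    have hgn : r ≠ 0 := (norm_ne_zero_iff (E := StrongDual 𝕜 X)).2 fun h => hg0 (Subtype.ext h)
    have hr0 : 0 < r := lt_of_le_of_ne (norm_nonneg _) hgn.symm
    set η := min (1 / 2 : ℝ) (ε / (2 * (R + 1)))
    have hη : 0 < η := lt_min (by norm_num) (by positivity)
    obtain ⟨j, hj⟩ := Metric.denseRange_iff.1 (TopologicalSpace.denseRange_denseSeq G) g' η hη
    have hj' : ‖(g' : StrongDual 𝕜 X) - a j‖ < η := by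
      rw [← dist_eq_norm (E := StrongDual 𝕜 X)]
      exact hj
    have hg'1 : ‖(g' : StrongDual 𝕜 X)‖ = 1 := by
      rw [hg', Submodule.coe_smul, norm_smul, norm_inv, RCLike.norm_ofReal, abs_of_pos hr0,
        ← hr, inv_mul_cancel₀ hgn]
    refine ⟨j, ?_, fun i hi x hx => ?_⟩
    · have := norm_sub_norm_le (g' : StrongDual 𝕜 X) (a j)
      linarith [min_le_left (1 / 2 : ℝ) (ε / (2 * (R + 1)))]
    · have hxS := hsub i hi hx
      have h1 : ‖(g' : StrongDual 𝕜 X) x‖ ≤ ε / 2 := by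
        have h2 : 2 / ε * ‖(g : StrongDual 𝕜 X) x‖ < r := hg x hxS
        rw [hg', Submodule.coe_smul, smul_apply, norm_smul, norm_inv,
          RCLike.norm_ofReal, abs_of_pos hr0, inv_mul_le_iff₀ hr0]
        rw [div_mul_eq_mul_div, div_lt_iff₀ hε] at h2
        linarith
      have h3 : ‖((g' : StrongDual 𝕜 X) - a j) x‖ ≤ ε / 2 := by
        refine ((((g' : StrongDual 𝕜 X) - a j).le_opNorm x).trans
          (mul_le_mul (hj'.le.trans (min_le_right _ _)) (hR x hxS) (norm_nonneg _)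
            (by positivity))).trans ?_
        rw [div_mul_eq_mul_div, div_le_iff₀ (by positivity)]
        nlinarith
      have h4 := norm_sub_le ((g' : StrongDual 𝕜 X) x) (((g' : StrongDual 𝕜 X) - a j) x)
      rw [sub_apply, sub_sub_cancel] at h4
      rw [sub_apply] at h3
      linarith
  -- the sets of admissible pairs
  let pr : ℕ → ℕ × ℕ := Nat.unpair
  let U : ι ⊕ ℕ → Set ℕ := Sum.elim
    (fun i => {p | ∀ x ∈ K i, (16 : ℝ) ^ (pr p).1 * ‖a (pr p).2 x‖ ≤ 1})
    (fun m => {p | m ≤ (pr p).1 ∧ (1 / 2 : ℝ) ≤ ‖a (pr p).2‖})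
  have hfip : StrongFIP (range U) := by
    intro s hs
    choose! idx hidx using fun A (hA : A ∈ s) => hs (Finset.mem_coe.2 hA)
    set t := s.image idx
    set m := t.toRight.sup id
    refine infinite_of_forall_exists_gt fun N => ?_
    obtain ⟨j, hj1, hj2⟩ := hsmall t.toLeft ((16 : ℝ) ^ (max m (N + 1)))⁻¹ (by positivity)
    refine ⟨Nat.pair (max m (N + 1)) j, ?_, ?_⟩
    · simp only [mem_iInter]
      intro A hA
      rw [← hidx A hA]
      have hmem : idx A ∈ t := Finset.mem_image_of_mem _ hA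
      rcases hcase : idx A with i | k
      · intro x hx
        simp only [pr, Nat.unpair_pair]
        have := hj2 i (Finset.mem_toLeft.2 (hcase ▸ hmem)) x hx
        rwa [← one_div, le_div_iff₀' (by positivity)] at this
      · simp only [U, Sum.elim_inr, mem_ofPred_eq, pr, Nat.unpair_pair]
        exact ⟨(Finset.le_sup (f := id) (Finset.mem_toRight.2 (hcase ▸ hmem))).trans
          (le_max_left _ _), hj1⟩
    · exact lt_of_lt_of_le (Nat.lt_succ_self N) ((le_max_right m (N + 1)).trans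
        (Nat.left_le_pair _ _))
  have hcard : Cardinal.mk (range U) < pseudoNumber := by
    have h1 : Cardinal.lift.{v} (Cardinal.mk (range U)) ≤
        Cardinal.lift.{0} (Cardinal.mk (ι ⊕ ℕ)) := mk_range_le_lift
    rw [← Cardinal.lift_lt.{0, v}]
    refine h1.trans_lt ?_
    have hp : ℵ₀ < Cardinal.lift.{v} pseudoNumber :=
      aleph0_lt_lift.2 aleph0_lt_pseudoNumber
    rw [mk_sum]
    simp only [Cardinal.lift_add, Cardinal.lift_lift]
    refine add_lt_of_lt hp.le ?_ ?_
    · simpa using hι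
    · simpa using hp
  obtain ⟨P, hP, hPA⟩ := hasPseudoIntersection_of_lt hfip hcard
  have hpick : ∀ k, ∃ p, p ∈ P ∧ p ∈ U (Sum.inr k) := fun k => by
    obtain ⟨p, hp, hn⟩ := (hP.sdiff (hPA _ ⟨Sum.inr k, rfl⟩)).nonempty
    exact ⟨p, hp, by_contra fun h => hn ⟨hp, h⟩⟩
  choose p hpP hpU using hpick
  refine hasSeparableQuotient_of_rapid (fun k => a (pr (p k)).2) (fun k => (hpU k).2)
    (Submodule.span 𝕜 (⋃ i, K i)) hdense fun x hx => ?_
  induction hx using Submodule.span_induction with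
  | mem x hx =>
    obtain ⟨i, hi⟩ := mem_iUnion.1 hx
    have hev : ∀ᶠ k in atTop, p k ∈ U (Sum.inl i) := by
      obtain ⟨N, hN⟩ := ((hPA _ ⟨Sum.inl i, rfl⟩).image fun q => (pr q).1).bddAbove
      filter_upwards [eventually_gt_atTop N] with k hk
      by_contra h
      have h1 : (pr (p k)).1 ≤ N := hN ⟨p k, ⟨hpP k, h⟩, rfl⟩
      have h2 : k ≤ (pr (p k)).1 := (hpU k).1
      omega
    refine squeeze_zero' (.of_forall fun k => by positivity) ?_
      (tendsto_pow_atTop_nhds_zero_of_lt_one (show (0 : ℝ) ≤ 1 / 2 by norm_num) (by norm_num))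
    filter_upwards [hev] with k hk
    have h1 := hk x hi
    have h2 : (16 : ℝ) ^ k ≤ 16 ^ (pr (p k)).1 := pow_le_pow_right₀ (by norm_num) (hpU k).1
    rw [one_div_pow, le_div_iff₀ (by positivity)]
    rw [show (16 : ℝ) ^ k = 2 ^ k * 8 ^ k by rw [← mul_pow]; norm_num] at h2
    nlinarith [mul_le_mul_of_nonneg_right h2 (norm_nonneg (a (pr (p k)).2 x))]
  | zero => simp
  | add x y _ _ hx hy =>
    refine squeeze_zero (fun k => by positivity) (fun k => ?_) (by simpa using hx.add hy)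
    rw [map_add, ← mul_add]
    exact mul_le_mul_of_nonneg_left (norm_add_le _ _) (by positivity)
  | smul c x _ hx =>
    simpa [map_smul, norm_smul, mul_left_comm] using hx.const_mul ‖c‖

end Vale.Agent.P129
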