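import Vale.Agent.P129.Criterion

/-!
P129: weakly compact sets. If an absolutely convex weakly compact set norms a separable
infinite-dimensional space of functionals, the dual of that space is a separable quotient.
-/

noncomputable section

open Filter Topology Set

namespace Vale.Agent.P129

universe u

variable (𝕜 : Type*) [RCLike 𝕜] {X : Type u} [NormedAddCommGroup X] [NormedSpace 𝕜 X]

/-- An absolutely convex set that is compact in the weak topology. -/
def IsWeaklyCompactDisc (K : Set X) : Prop :=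
  (∀ x ∈ K, ∀ y ∈ K, ∀ a b : 𝕜, ‖a‖ + ‖b‖ ≤ 1 → a • x + b • y ∈ K) ∧
    IsCompact (toWeakSpace 𝕜 X '' K)

variable {𝕜}

lemma continuous_weakEval (g : StrongDual 𝕜 X) :
    Continuous fun w : WeakSpace 𝕜 X => g ((toWeakSpace 𝕜 X).symm w) :=
  WeakBilin.eval_continuous (topDualPairing 𝕜 X).flip g

lemma IsWeaklyCompactDisc.zero_mem {K : Set X} (hK : IsWeaklyCompactDisc 𝕜 K) (hne : K.Nonempty) :
    (0 : X) ∈ K := by
  obtain ⟨x, hx⟩ := hne
  simpa using hK.1 x hx x hx 0 0 (by simp)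

lemma isWeaklyCompactDisc_zero : IsWeaklyCompactDisc 𝕜 ({0} : Set X) :=
  ⟨by simp, by simp⟩

lemma IsWeaklyCompactDisc.exists_bound {K : Set X} (hK : IsWeaklyCompactDisc 𝕜 K) :
    ∃ R, ∀ x ∈ K, ‖x‖ ≤ R := by
  obtain ⟨C, hC⟩ := banach_steinhaus
    (g := fun x : K => NormedSpace.inclusionInDoubleDual 𝕜 X x.1) (fun g => by
      obtain ⟨C, hC⟩ := hK.2.exists_bound_of_continuousOn (continuous_weakEval g).continuousOn
      exact ⟨C, fun x => hC (toWeakSpace 𝕜 X x.1) ⟨x.1, x.2, rfl⟩⟩)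
  refine ⟨C, fun x hx => ?_⟩
  rw [← (NormedSpace.inclusionInDoubleDualLi 𝕜 (E := X)).norm_map x]
  exact hC ⟨x, hx⟩

lemma IsWeaklyCompactDisc.add {K L : Set X} (hK : IsWeaklyCompactDisc 𝕜 K)
    (hL : IsWeaklyCompactDisc 𝕜 L) :
    IsWeaklyCompactDisc 𝕜 {z | ∃ x ∈ K, ∃ y ∈ L, x + y = z} := by
  refine ⟨?_, ?_⟩
  · rintro _ ⟨x, hx, y, hy, rfl⟩ _ ⟨x', hx', y', hy', rfl⟩ a b hab
    exact ⟨_, hK.1 x hx x' hx' a b hab, _, hL.1 y hy y' hy' a b hab, by module⟩
  · have h := (hK.2.prod hL.2).image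
      (continuous_add : Continuous fun p : WeakSpace 𝕜 X × WeakSpace 𝕜 X => p.1 + p.2)
    convert! h using 1
    ext w
    constructor
    · rintro ⟨_, ⟨x, hx, y, hy, rfl⟩, rfl⟩
      exact ⟨(_, _), ⟨⟨x, hx, rfl⟩, ⟨y, hy, rfl⟩⟩, (map_add _ x y).symm⟩
    · rintro ⟨⟨_, _⟩, ⟨⟨x, hx, rfl⟩, ⟨y, hy, rfl⟩⟩, rfl⟩
      exact ⟨x + y, ⟨x, hx, y, hy, rfl⟩, map_add _ x y⟩

lemma exists_disc_of_finset {ι : Type*} (K : ι → Set X) (hK : ∀ i, IsWeaklyCompactDisc 𝕜 (K i))
    (F : Finset ι) :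
    ∃ S : Set X, IsWeaklyCompactDisc 𝕜 S ∧ (0 : X) ∈ S ∧ ∀ i ∈ F, K i ⊆ S := by
  classical
  induction F using Finset.induction_on with
  | empty => exact ⟨{0}, isWeaklyCompactDisc_zero, rfl, by simp⟩
  | insert i F _ ih =>
    obtain ⟨S, hS, h0, hsub⟩ := ih
    rcases (K i).eq_empty_or_nonempty with he | hne
    · refine ⟨S, hS, h0, fun j hj => ?_⟩
      rcases Finset.mem_insert.1 hj with rfl | hj
      · simp [he]
      · exact hsub j hj
    have hi := (hK i).zero_mem hne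
    refine ⟨_, (hK i).add hS, ⟨0, hi, 0, h0, add_zero 0⟩, fun j hj => ?_⟩
    rcases Finset.mem_insert.1 hj with rfl | hj
    · exact fun x hx => ⟨x, hx, 0, h0, add_zero x⟩
    · exact fun x hx => ⟨0, hi, x, hsub j hj hx, zero_add x⟩

/-- A weakly compact disc norming a separable space of functionals gives a separable quotient. -/
theorem hasSeparableQuotient_of_norming [CompleteSpace X] {G : Type*} [NormedAddCommGroup G]
    [NormedSpace 𝕜 G] (T : G →ₗᵢ[𝕜] StrongDual 𝕜 X)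
    (hG : ¬FiniteDimensional 𝕜 G) [TopologicalSpace.SeparableSpace G] {S : Set X}
    (hS : IsWeaklyCompactDisc 𝕜 S) (h0 : (0 : X) ∈ S) {C : ℝ} (hC : 0 < C)
    (hnorm : ∀ g : G, ∃ s ∈ S, ‖g‖ ≤ C * ‖T g s‖) :
    HasSeparableQuotient 𝕜 X := by
  classical
  let J : X →L[𝕜] StrongDual 𝕜 G := (T.toContinuousLinearMap).flip
  have hJ : ∀ x (g : G), J x g = (T g) x := fun x g => rfl
  -- the image of the set contains a ball
  have hball : ∀ φ : StrongDual 𝕜 G, ‖φ‖ ≤ C⁻¹ → ∃ s ∈ S, J s = φ := by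
    intro φ hφ
    have hfin : ∀ F : Finset G, ∃ s ∈ S, ∀ g ∈ F, (T g) s = φ g := by
      intro F
      set Rf : X → (F → 𝕜) := fun x i => (T i.1) x with hRf
      have hcl : IsClosed (Rf '' S) := by
        have h1 : Continuous fun w : WeakSpace 𝕜 X => Rf ((toWeakSpace 𝕜 X).symm w) :=
          continuous_pi fun i => continuous_weakEval (T i.1)
        have h2 := (hS.2.image h1).isClosed
        rwa [Set.image_image] at h2
      have hconv : Convex ℝ (Rf '' S) := by
        rintro _ ⟨x, hx, rfl⟩ _ ⟨y, hy, rfl⟩ a b ha hb hab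
        refine ⟨(a : 𝕜) • x + (b : 𝕜) • y, hS.1 x hx y hy _ _ ?_, ?_⟩
        · rw [RCLike.norm_ofReal, RCLike.norm_ofReal, abs_of_nonneg ha, abs_of_nonneg hb, hab]
        · funext i
          simp [hRf, RCLike.real_smul_eq_coe_mul]
      by_contra hno
      push Not at hno
      have hx0 : (fun i : F => φ i.1) ∉ Rf '' S := by
        rintro ⟨s, hs, hse⟩
        obtain ⟨g, hg, hne⟩ := hno s hs
        exact hne (congrFun hse ⟨g, hg⟩)
      obtain ⟨f, c, hlt, hgt⟩ := RCLike.geometric_hahn_banach_closed_point (𝕜 := 𝕜) hconv hcl hx0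
      set g₀ : G := ∑ i : F, f (Pi.single i 1) • i.1 with hg₀
      have hfy : ∀ y : F → 𝕜, f y = ∑ i, f (Pi.single i 1) * y i := fun y => by
        conv_lhs => rw [pi_eq_sum_univ' y, map_sum]
        exact Finset.sum_congr rfl fun i _ => by rw [map_smul, smul_eq_mul, mul_comm]
      have hg0x : ∀ s, (T g₀) s = f (Rf s) := fun s => by
        rw [hfy, hg₀]; simp [hRf]
      have hg0φ : φ g₀ = f fun i : F => φ i.1 := by
        rw [hfy, hg₀]; simp
      obtain ⟨s, hs, hsn⟩ := hnorm g₀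
      obtain ⟨l, hl, hls⟩ : ∃ l : 𝕜, ‖l‖ ≤ 1 ∧
          RCLike.re (l * (T g₀) s) = ‖(T g₀) s‖ := by
        rcases eq_or_ne ((T g₀) s) 0 with h | h
        · exact ⟨0, by simp, by simp [h]⟩
        · set t := (T g₀) s
          have ht := norm_ne_zero_iff.2 h
          refine ⟨(‖t‖⁻¹ : ℝ) * (starRingEnd 𝕜) t, ?_, ?_⟩
          · simp [ht]
          · rw [mul_assoc, RCLike.conj_mul, ← RCLike.ofReal_pow, ← RCLike.ofReal_mul,
              RCLike.ofReal_re]
            field_simp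
      have hmem : l • s ∈ S := by simpa using hS.1 s hs 0 h0 l 0 (by simpa using hl)
      have h1 := hlt _ ⟨l • s, hmem, rfl⟩
      rw [← hg0x, map_smul, smul_eq_mul, hls] at h1
      have h2 : RCLike.re (f fun i : F => φ i.1) ≤ ‖(T g₀) s‖ := by
        rw [← hg0φ]
        refine ((RCLike.re_le_norm _).trans ((φ.le_opNorm g₀).trans
          (mul_le_mul hφ hsn (norm_nonneg _) (inv_nonneg.2 hC.le)))).trans_eq ?_
        field_simp
      linarith
    obtain ⟨w, hw, hwg⟩ := hS.2.inter_iInter_nonempty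
      (fun g : G => {w : WeakSpace 𝕜 X |
        (T g) ((toWeakSpace 𝕜 X).symm w) = φ g})
      (fun g => isClosed_eq (continuous_weakEval _) continuous_const) (fun F => by
        obtain ⟨s, hs, hsg⟩ := hfin F
        exact ⟨toWeakSpace 𝕜 X s, ⟨s, hs, rfl⟩, by simpa using hsg⟩)
    obtain ⟨s, hs, rfl⟩ := hw
    refine ⟨s, hs, ContinuousLinearMap.ext fun g => ?_⟩
    simpa [hJ] using mem_iInter.1 hwg g
  have hscale : ∀ φ : StrongDual 𝕜 G, ∃ t : 𝕜, ∃ s ∈ S, φ = t • J s := by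
    intro φ
    rcases eq_or_ne φ 0 with rfl | hφ
    · exact ⟨0, 0, h0, (zero_smul 𝕜 (J 0)).symm⟩
    have hφn := norm_ne_zero_iff.2 hφ
    have ht : ((C * ‖φ‖ : ℝ) : 𝕜) ≠ 0 := by
      rw [RCLike.ofReal_ne_zero]; positivity
    obtain ⟨s, hs, hse⟩ := hball (((C * ‖φ‖ : ℝ) : 𝕜)⁻¹ • φ) (le_of_eq (by
      rw [norm_smul, norm_inv, RCLike.norm_ofReal, abs_of_pos (by positivity)]
      field_simp))
    exact ⟨_, s, hs, by rw [hse, smul_smul, mul_inv_cancel₀ ht, one_smul]⟩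
  have hsurj : Function.Surjective J := fun φ => by
    obtain ⟨t, s, -, rfl⟩ := hscale φ
    exact ⟨t • s, map_smul _ _ _⟩
  -- the dual of `G` is separable
  have : Nonempty G := ⟨0⟩
  set q : ℕ → G := TopologicalSpace.denseSeq G
  let e : X → ℕ → 𝕜 := fun x n => (T (q n)) x
  obtain ⟨D, hDS, hDc, hDd⟩ : ∃ D : Set X, D ⊆ S ∧ D.Countable ∧ e '' S ⊆ closure (e '' D) := by
    have : TopologicalSpace.SeparableSpace (e '' S) := by infer_instance
    have : Nonempty (e '' S) := ⟨⟨e 0, 0, h0, rfl⟩⟩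
    choose d hd hde using fun n => (TopologicalSpace.denseSeq (e '' S) n).2
    refine ⟨range d, range_subset_iff.2 hd, countable_range d, fun y hy => ?_⟩
    have h := map_mem_closure continuous_subtype_val
      (TopologicalSpace.denseRange_denseSeq (e '' S) ⟨y, hy⟩)
      (t := e '' range d) (by rintro _ ⟨n, rfl⟩; exact ⟨d n, ⟨n, rfl⟩, hde n⟩)
    exact h
  set Z := (Submodule.span 𝕜 (J '' D)).topologicalClosure with hZ
  have hZall : ∀ φ, φ ∈ Z := by
    intro φ
    by_contra hφ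
    have : IsClosed (Z : Set (StrongDual 𝕜 G)) := Submodule.isClosed_topologicalClosure _
    have hne : (Submodule.Quotient.mk φ : StrongDual 𝕜 G ⧸ Z) ≠ 0 := fun h =>
      hφ ((Submodule.Quotient.mk_eq_zero Z).1 h)
    obtain ⟨g, -, hg⟩ := exists_dual_vector 𝕜 (Submodule.Quotient.mk φ : StrongDual 𝕜 G ⧸ Z)
      (fun h => hne ((norm_eq_zero (E := StrongDual 𝕜 G ⧸ Z)).1 h))
    let f : StrongDual 𝕜 (StrongDual 𝕜 G) := g.comp Z.mkQL
    have hfD : ∀ d ∈ D, f (J d) = 0 := fun d hd => by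
      have hJd : J d ∈ Z := Submodule.le_topologicalClosure _ (Submodule.subset_span ⟨d, hd, rfl⟩)
      show g (Submodule.Quotient.mk (J d)) = 0
      rw [(Submodule.Quotient.mk_eq_zero Z).2 hJd, map_zero]
    -- the weak closure of `D` inside the set
    let A := toWeakSpace 𝕜 X '' S ∩ closure (toWeakSpace 𝕜 X '' D)
    have hA : IsCompact A := hS.2.inter_right isClosed_closure
    have hfA : ∀ w ∈ A, f (J ((toWeakSpace 𝕜 X).symm w)) = 0 := fun w hw => by
      have hc : IsClosed {w : WeakSpace 𝕜 X | (f.comp J) ((toWeakSpace 𝕜 X).symm w) = 0} :=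
        isClosed_eq (continuous_weakEval _) continuous_const
      refine hc.closure_subset_iff.2 ?_ hw.2
      rintro _ ⟨d, hd, rfl⟩
      simpa using hfD d hd
    have hec : Continuous fun w : WeakSpace 𝕜 X => e ((toWeakSpace 𝕜 X).symm w) :=
      continuous_pi fun n => continuous_weakEval _
    obtain ⟨t, s, hs, rfl⟩ := hscale φ
    obtain ⟨w, hw, hwe⟩ := (hA.image hec).isClosed.closure_subset_iff.2 (show e '' D ⊆ _ from by
      rintro _ ⟨d, hd, rfl⟩
      exact ⟨toWeakSpace 𝕜 X d, ⟨⟨d, hDS hd, rfl⟩, subset_closure ⟨d, hd, rfl⟩⟩, by simp⟩)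
      (hDd ⟨s, hs, rfl⟩)
    have hJeq : J ((toWeakSpace 𝕜 X).symm w) = J s :=
      DFunLike.coe_injective ((TopologicalSpace.denseRange_denseSeq G).equalizer
        (ContinuousLinearMap.continuous _) (ContinuousLinearMap.continuous _)
        (funext fun n => congrFun hwe n))
    have h0' : f (t • J s) = 0 := by rw [map_smul, ← hJeq, hfA w hw, smul_zero]
    exact hne ((norm_eq_zero (E := StrongDual 𝕜 G ⧸ Z)).1 (RCLike.ofReal_eq_zero.1 (hg.symm.trans h0')))
  have hsepdual : TopologicalSpace.SeparableSpace (StrongDual 𝕜 G) := by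
    refine TopologicalSpace.isSeparable_univ_iff.1
      (((hDc.image J).isSeparable.span (R := 𝕜)).closure.mono fun φ _ => ?_)
    simpa [hZ, ← SetLike.mem_coe, Submodule.topologicalClosure_coe] using hZall φ
  -- the quotient by the kernel
  have hMc : IsClosed (J.ker : Set X) := J.isClosed_ker
  let Jq : (X ⧸ J.ker) →L[𝕜] StrongDual 𝕜 G :=
    ⟨J.ker.liftQ J.toLinearMap le_rfl,
      J.ker.isQuotientMap_mkQ.continuous_iff.2 J.continuous⟩
  have hinj : Jq.ker = ⊥ := Submodule.ker_liftQ_eq_bot' _ _ rfl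
  have hrange : Jq.range = ⊤ := LinearMap.range_eq_top.2 fun φ => by
    obtain ⟨x, rfl⟩ := hsurj φ
    exact ⟨Submodule.Quotient.mk x, rfl⟩
  let E' := ContinuousLinearEquiv.ofBijective Jq hinj hrange
  refine ⟨J.ker, hMc, E'.symm.surjective.denseRange.separableSpace E'.symm.continuous, fun h => ?_⟩
  have : FiniteDimensional 𝕜 (StrongDual 𝕜 G) := E'.toLinearEquiv.finiteDimensional
  have : FiniteDimensional 𝕜 (StrongDual 𝕜 (StrongDual 𝕜 G)) := inferInstance
  have : IsNoetherian 𝕜 (StrongDual 𝕜 (StrongDual 𝕜 G)) :=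
    isNoetherian_of_isNoetherianRing_of_finite 𝕜 (StrongDual 𝕜 (StrongDual 𝕜 G))
  exact hG (Module.Finite.of_injective
    ((NormedSpace.inclusionInDoubleDual 𝕜 G) : G →ₗ[𝕜] StrongDual 𝕜 (StrongDual 𝕜 G))
    (fun a b h => by exact (NormedSpace.inclusionInDoubleDualLi 𝕜 (E := G)).injective h))

end Vale.Agent.P129
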